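import Vale.Agent.P057.H933.Blk

set_option linter.all false

section

open Finset

namespace Vale.Agent.P057.H933

theorem ivl (q : ℕ) (hq : 0 < q) (α β : ℝ) (hα : -1 ≤ α) (hβ : β ≤ 1) (T : Finset ℤ)
    (hT : ∀ v : ℤ, -(q : ℤ) ≤ v → v ≤ q → α < (v : ℝ) / q → (v : ℝ) / q < β → v ∈ T) :
    ∃ I : Finset ℤ, I ⊆ T ∧ (∀ v ∈ I, α < (v : ℝ) / q ∧ (v : ℝ) / q < β) ∧
      (q : ℝ) * (β - α) - 1 ≤ I.card := by
  have hqR : (0 : ℝ) < q := by exact_mod_cast hq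
  have hmem : ∀ v ∈ Finset.Icc (⌊(q : ℝ) * α⌋ + 1) (⌈(q : ℝ) * β⌉ - 1),
      α < (v : ℝ) / q ∧ (v : ℝ) / q < β := by
    intro v hv
    rw [Finset.mem_Icc] at hv
    constructor
    · rw [lt_div_iff₀ hqR]
      have h1 : ⌊(q : ℝ) * α⌋ < v := by omega
      have := Int.floor_lt.1 h1
      linarith
    · rw [div_lt_iff₀ hqR]
      have h1 : v < ⌈(q : ℝ) * β⌉ := by omega
      have := Int.lt_ceil.1 h1
      linarith
  refine ⟨Finset.Icc (⌊(q : ℝ) * α⌋ + 1) (⌈(q : ℝ) * β⌉ - 1), ?_, hmem, ?_⟩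
  · intro v hv
    obtain ⟨h1, h2⟩ := hmem v hv
    refine hT v ?_ ?_ h1 h2
    · have h3 : (-1 : ℝ) < (v : ℝ) / q := lt_of_le_of_lt hα h1
      rw [lt_div_iff₀ hqR] at h3
      have h4 : (-(q : ℝ)) < v := by linarith
      have h5 : -(q : ℤ) < v := by exact_mod_cast h4
      exact h5.le
    · have h3 : (v : ℝ) / q < 1 := lt_of_lt_of_le h2 hβ
      rw [div_lt_iff₀ hqR] at h3
      have h4 : (v : ℝ) < q := by linarith
      have h5 : v < (q : ℤ) := by exact_mod_cast h4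
      exact h5.le
  · rw [Int.card_Icc]
    have h1 := Int.floor_le ((q : ℝ) * α)
    have h2 := Int.le_ceil ((q : ℝ) * β)
    have h3 : ((⌈(q : ℝ) * β⌉ - 1 + 1 - (⌊(q : ℝ) * α⌋ + 1) : ℤ) : ℝ) ≤
        (((⌈(q : ℝ) * β⌉ - 1 + 1 - (⌊(q : ℝ) * α⌋ + 1)).toNat : ℕ) : ℝ) := by
      have := Int.self_le_toNat (⌈(q : ℝ) * β⌉ - 1 + 1 - (⌊(q : ℝ) * α⌋ + 1))
      exact_mod_cast this
    push_cast at h3
    linarith

theorem ivl_one (q : ℕ) (hq : 0 < q) (α β : ℝ) (hα : -1 ≤ α) (hβ : β ≤ 1) (T : Finset ℤ)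
    (hT : ∀ v : ℤ, -(q : ℤ) ≤ v → v ≤ q → α < (v : ℝ) / q → (v : ℝ) / q < β → v ∈ T) :
    (q : ℝ) * (β - α) - 1 ≤ T.card := by
  obtain ⟨I, h1, -, h3⟩ := ivl q hq α β hα hβ T hT
  have := Finset.card_le_card h1
  have : (I.card : ℝ) ≤ T.card := by exact_mod_cast this
  linarith

theorem ivl_two (q : ℕ) (hq : 0 < q) (α β α' β' : ℝ) (hα : -1 ≤ α) (hβ : β ≤ 1) (hα' : -1 ≤ α')
    (hβ' : β' ≤ 1) (hd : β ≤ α') (T : Finset ℤ)
    (hT : ∀ v : ℤ, -(q : ℤ) ≤ v → v ≤ q → α < (v : ℝ) / q → (v : ℝ) / q < β → v ∈ T)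
    (hT' : ∀ v : ℤ, -(q : ℤ) ≤ v → v ≤ q → α' < (v : ℝ) / q → (v : ℝ) / q < β' → v ∈ T) :
    (q : ℝ) * ((β - α) + (β' - α')) - 2 ≤ T.card := by
  obtain ⟨I, h1, h2, h3⟩ := ivl q hq α β hα hβ T hT
  obtain ⟨J, g1, g2, g3⟩ := ivl q hq α' β' hα' hβ' T hT'
  have hdis : Disjoint I J := by
    rw [Finset.disjoint_left]
    intro v hv hv'
    have := (h2 v hv).2
    have := (g2 v hv').1
    linarith
  have h4 : (I ∪ J).card ≤ T.card := Finset.card_le_card (Finset.union_subset h1 g1)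
  rw [Finset.card_union_of_disjoint hdis] at h4
  have h5 : (I.card : ℝ) + J.card ≤ T.card := by exact_mod_cast h4
  linarith

open Classical in
/-- the fibre over `u` -/
noncomputable def fib (δ : ℝ) (p q : ℕ) (u : ℕ) : Finset ℤ :=
  (Finset.Icc (-(q : ℤ)) q).filter (fun v => InS δ ((u : ℝ) / p) ((v : ℝ) / q))

theorem mem_fib {δ : ℝ} {p q u : ℕ} {v : ℤ} : v ∈ fib δ p q u ↔
    (-(q : ℤ) ≤ v ∧ v ≤ q) ∧ InS δ ((u : ℝ) / p) ((v : ℝ) / q) := by
  unfold fib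
  simp only [Finset.mem_filter, Finset.mem_Icc]

theorem sum_fib {δ : ℝ} (hδ : 0 ≤ δ) {p q : ℕ} (hp : 0 < p) (n : ℕ) (hn : n ≤ p) :
    ∑ u ∈ range n, ((fib δ p q u).card : ℝ) ≤ (blk δ p q).card := by
  have hpR : (0 : ℝ) < p := by exact_mod_cast hp
  have h1 : ((range n).sigma (fun u => fib δ p q u)).card ≤ (blk δ p q).card := by
    apply Finset.card_le_card_of_injOn (fun s => ((s.1 : ℤ), s.2))
    · intro s hs
      have hs' := Finset.mem_sigma.1 (Finset.mem_coe.1 hs)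
      obtain ⟨h1, h2⟩ := hs'
      obtain ⟨h3, h4⟩ := mem_fib.1 h2
      have h5 := Finset.mem_range.1 h1
      rw [Finset.mem_coe, mem_blk]
      refine ⟨⟨⟨?_, ?_⟩, h3⟩, ?_⟩
      · have h6 := (env_up hδ h4).1
        rw [div_pos_iff_of_pos_right hpR] at h6
        show (0 : ℤ) < (s.1 : ℤ)
        exact_mod_cast h6
      · show (s.1 : ℤ) < p
        exact_mod_cast lt_of_lt_of_le h5 hn
      · show InS δ (((s.1 : ℤ) : ℝ) / p) ((s.2 : ℝ) / q)
        rwa [Int.cast_natCast]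
    · intro s hs s' hs' h
      have e1 : (s.1 : ℤ) = s'.1 := congrArg Prod.fst h
      have e2 : s.2 = s'.2 := congrArg Prod.snd h
      have e3 : s.1 = s'.1 := by exact_mod_cast e1
      exact Sigma.ext e3 (heq_of_eq e2)
  rw [Finset.card_sigma] at h1
  exact_mod_cast h1

theorem lin_sum (a b : ℝ) (n : ℕ) :
    ∑ i ∈ range n, (a + b * i) = n * a + b * (n * (n - 1) / 2) := by
  induction n with
  | zero => simp
  | succ n ih => rw [Finset.sum_range_succ, ih]; push_cast; ring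

theorem ite_sum (t n : ℕ) (c : ℝ) (hc : 0 ≤ c) :
    ∑ i ∈ range n, (if i < t then c else 0) ≤ t * c := by
  rw [← Finset.sum_filter, Finset.sum_const, nsmul_eq_mul]
  apply mul_le_mul_of_nonneg_right _ hc
  have : ((range n).filter (fun i => i < t)).card ≤ (range t).card := by
    apply Finset.card_le_card
    intro i hi
    rw [Finset.mem_filter] at hi
    exact Finset.mem_range.2 hi.2
  rw [Finset.card_range] at this
  exact_mod_cast this

theorem fib1 {δ : ℝ} {p q : ℕ} (hp : 0 < p) (hq : 0 < q) (u : ℕ) (hx : (u : ℝ) / p < 1 / 2) :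
    (q : ℝ) * (u / p) - 1 ≤ ((fib δ p q u).card : ℝ) := by
  have hpR : (0 : ℝ) < p := by exact_mod_cast hp
  have hx0 : 0 ≤ (u : ℝ) / p := by positivity
  have hm : ∀ v : ℤ, v ∈ fib δ p q u ↔
      (-(q : ℤ) ≤ v ∧ v ≤ q) ∧ InS δ ((u : ℝ) / p) ((v : ℝ) / q) := fun v => mem_fib
  generalize (u : ℝ) / p = x at hx hx0 hm ⊢
  rcases hx0.eq_or_lt with h0 | h0
  · rw [← h0, mul_zero]
    have : (0 : ℝ) ≤ ((fib δ p q u).card : ℝ) := by positivity
    linarith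
  · have := ivl_one q hq (-(x / 2)) (x / 2) (by linarith) (by linarith)
      (fib δ p q u) (fun v h1 h2 h3 h4 => (hm v).2 ⟨⟨h1, h2⟩, Or.inl ⟨h0, hx, h3, h4⟩⟩)
    have e : (q : ℝ) * (x / 2 - -(x / 2)) - 1 = q * x - 1 := by ring
    rw [← e]
    exact this

theorem fib2 {δ : ℝ} (hδ : 0 < δ) {p q : ℕ} (hq : 0 < q) (u : ℕ) (hx1 : 1 / 2 + δ < (u : ℝ) / p)
    (hx2 : (u : ℝ) / p < 5 / 8) :
    (q : ℝ) * (1 - u / p) - 2 ≤ ((fib δ p q u).card : ℝ) := by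
  have hm : ∀ v : ℤ, v ∈ fib δ p q u ↔
      (-(q : ℤ) ≤ v ∧ v ≤ q) ∧ InS δ ((u : ℝ) / p) ((v : ℝ) / q) := fun v => mem_fib
  generalize (u : ℝ) / p = x at hx1 hx2 hm ⊢
  have := ivl_two q hq (x / 2 - 1 / 2) (1 / 4 - x / 2) (x / 2 - 1 / 4) (x / 2) (by linarith)
    (by linarith) (by linarith) (by linarith) (by linarith) (fib δ p q u)
    (fun v h1 h2 h3 h4 => (hm v).2 ⟨⟨h1, h2⟩, Or.inr (Or.inl ⟨hx1, hx2, Or.inr ⟨h3, h4⟩⟩)⟩)
    (fun v h1 h2 h3 h4 => (hm v).2 ⟨⟨h1, h2⟩, Or.inr (Or.inl ⟨hx1, hx2, Or.inl ⟨h3, h4⟩⟩)⟩)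
  have e : (q : ℝ) * ((1 / 4 - x / 2 - (x / 2 - 1 / 2)) + (x / 2 - (x / 2 - 1 / 4))) - 2 =
      q * (1 - x) - 2 := by ring
  rw [← e]
  exact this

theorem fib3 {δ : ℝ} (hδ : 0 < δ) {p q : ℕ} (hq : 0 < q) (u : ℕ) (hx1 : 5 / 8 + δ < (u : ℝ) / p)
    (hx2 : (u : ℝ) / p < 3 / 4) :
    (q : ℝ) * (u / p - 1 / 4) - 2 ≤ ((fib δ p q u).card : ℝ) := by
  have hm : ∀ v : ℤ, v ∈ fib δ p q u ↔
      (-(q : ℤ) ≤ v ∧ v ≤ q) ∧ InS δ ((u : ℝ) / p) ((v : ℝ) / q) := fun v => mem_fib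
  generalize (u : ℝ) / p = x at hx1 hx2 hm ⊢
  have := ivl_two q hq (-(x / 2)) (x / 2 - 1 / 2) (x / 2 - 1 / 4) (x / 2) (by linarith)
    (by linarith) (by linarith) (by linarith) (by linarith) (fib δ p q u)
    (fun v h1 h2 h3 h4 => (hm v).2 ⟨⟨h1, h2⟩,
      Or.inr (Or.inr (Or.inl ⟨hx1, hx2, Or.inr ⟨h3, h4⟩⟩))⟩)
    (fun v h1 h2 h3 h4 => (hm v).2 ⟨⟨h1, h2⟩,
      Or.inr (Or.inr (Or.inl ⟨hx1, hx2, Or.inl ⟨h3, h4⟩⟩))⟩)
  have e : (q : ℝ) * ((x / 2 - 1 / 2 - -(x / 2)) + (x / 2 - (x / 2 - 1 / 4))) - 2 =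
      q * (x - 1 / 4) - 2 := by ring
  rw [← e]
  exact this

theorem fib4 {δ : ℝ} (hδ : 0 < δ) {p q : ℕ} (hq : 0 < q) (u : ℕ) (hx1 : 3 / 4 + δ < (u : ℝ) / p)
    (hx2 : (u : ℝ) / p < 1) :
    (q : ℝ) * (2 - 2 * (u / p)) - 2 ≤ ((fib δ p q u).card : ℝ) := by
  have hm : ∀ v : ℤ, v ∈ fib δ p q u ↔
      (-(q : ℤ) ≤ v ∧ v ≤ q) ∧ InS δ ((u : ℝ) / p) ((v : ℝ) / q) := fun v => mem_fib
  generalize (u : ℝ) / p = x at hx1 hx2 hm ⊢
  have := ivl_two q hq (x / 2 - 3 / 4) (1 / 4 - x / 2) (x / 2 - 1 / 4) (3 / 4 - x / 2)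
    (by linarith) (by linarith) (by linarith) (by linarith) (by linarith) (fib δ p q u)
    (fun v h1 h2 h3 h4 => (hm v).2 ⟨⟨h1, h2⟩,
      Or.inr (Or.inr (Or.inr ⟨hx1, hx2, Or.inr ⟨h3, h4⟩⟩))⟩)
    (fun v h1 h2 h3 h4 => (hm v).2 ⟨⟨h1, h2⟩,
      Or.inr (Or.inr (Or.inr ⟨hx1, hx2, Or.inl ⟨h3, h4⟩⟩))⟩)
  have e : (q : ℝ) * ((1 / 4 - x / 2 - (x / 2 - 3 / 4)) + (3 / 4 - x / 2 - (x / 2 - 1 / 4))) - 2 =
      q * (2 - 2 * x) - 2 := by ring
  rw [← e]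
  exact this

/-- a lower bound for the sum over a window -/
theorem win (f : ℕ → ℝ) (hf : ∀ i, 0 ≤ f i) (n t : ℕ) (a b c : ℝ) (hc : 0 ≤ c)
    (h1 : ∀ i < n, t ≤ i → a + b * i ≤ f i) (h2 : ∀ i < n, a + b * i ≤ c) :
    n * a + b * (n * (n - 1) / 2) - t * c ≤ ∑ i ∈ range n, f i := by
  have h3 : ∑ i ∈ range n, (a + b * i) - ∑ i ∈ range n, (if i < t then c else 0) ≤
      ∑ i ∈ range n, f i := by
    rw [← Finset.sum_sub_distrib]
    apply Finset.sum_le_sum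
    intro i hi
    have hi' := Finset.mem_range.1 hi
    split_ifs with ht
    · have := h2 i hi'
      have := hf i
      linarith
    · have := h1 i hi' (not_lt.1 ht)
      linarith
  rw [lin_sum] at h3
  have := ite_sum t n c hc
  linarith

theorem final_real (p q n : ℝ) (hp : 0 < p) (hq : 0 < q) (hn0 : 0 ≤ n) (h1 : 8 * n ≤ p)
    (h2 : p ≤ 8 * n + 7) : 19 / 64 * (p * q) - 3 * q - 2 * p ≤
      ((4 * n) * (-1) + q / p * ((4 * n) * (4 * n - 1) / 2)) +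
      (n * (q * (1 - 4 * n / p) - 2) + -q / p * (n * (n - 1) / 2)) +
      (n * (q * (5 * n / p - 1 / 4) - 2) + q / p * (n * (n - 1) / 2)) +
      ((2 * n) * (q * (2 - 12 * n / p) - 2) + -(2 * q) / p * ((2 * n) * (2 * n - 1) / 2)) := by
  have e : ((4 * n) * (-1) + q / p * ((4 * n) * (4 * n - 1) / 2)) +
      (n * (q * (1 - 4 * n / p) - 2) + -q / p * (n * (n - 1) / 2)) +
      (n * (q * (5 * n / p - 1 / 4) - 2) + q / p * (n * (n - 1) / 2)) +
      ((2 * n) * (q * (2 - 12 * n / p) - 2) + -(2 * q) / p * ((2 * n) * (2 * n - 1) / 2)) =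
      19 / 4 * (q * n) - 19 * (q * (n * (n / p))) - 12 * n := by
    ring
  rw [e]
  have h1' : n / p ≤ 1 / 8 := by
    rw [div_le_div_iff₀ hp (by norm_num)]; linarith
  have h2' : n * (n / p) ≤ n * (1 / 8) := mul_le_mul_of_nonneg_left h1' hn0
  have h3 : q * (n * (n / p)) ≤ q * (n * (1 / 8)) := mul_le_mul_of_nonneg_left h2' hq.le
  have h4 : q * p ≤ q * (8 * n + 7) := mul_le_mul_of_nonneg_left h2 hq.le
  linarith

theorem blk_card {δ : ℝ} (hδ : 0 < δ) {p q : ℕ} (hp : 0 < p) (hq : 0 < q) :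
    (19 / 64 - 6 * δ) * ((p : ℝ) * q) - 80 * (p + q) ≤ ((blk δ p q).card : ℝ) := by
  have hpR : (0 : ℝ) < p := by exact_mod_cast hp
  have hqR : (0 : ℝ) < q := by exact_mod_cast hq
  obtain ⟨n, hn1, hn2⟩ : ∃ n : ℕ, 8 * n ≤ p ∧ p ≤ 8 * n + 7 := ⟨p / 8, by omega, by omega⟩
  obtain ⟨t, ht1, ht2⟩ : ∃ t : ℕ, δ * p + 8 ≤ t ∧ (t : ℝ) ≤ δ * p + 9 := by
    refine ⟨⌈δ * p⌉₊ + 8, ?_, ?_⟩
    · have := Nat.le_ceil (δ * p)
      push_cast
      linarith
    · have := Nat.ceil_lt_add_one (by positivity : 0 ≤ δ * p)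
      push_cast
      linarith
  have hn1R : 8 * (n : ℝ) ≤ p := by exact_mod_cast hn1
  have hn2R : (p : ℝ) ≤ 8 * n + 7 := by exact_mod_cast hn2
  have hn0 : (0 : ℝ) ≤ n := by positivity
  have hmain := final_real p q n hpR hqR hn0 hn1R hn2R
  have hnn : ∀ u, (0 : ℝ) ≤ ((fib δ p q u).card : ℝ) := fun u => by positivity
  refine le_trans ?_ (sum_fib hδ.le (q := q) hp (8 * n) hn1)
  have e8 : 8 * n = 4 * n + n + n + 2 * n := by ring
  rw [e8, Finset.sum_range_add, Finset.sum_range_add, Finset.sum_range_add]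
  have r1 := win (fun i => ((fib δ p q i).card : ℝ)) (fun i => hnn _) (4 * n) 0 (-1) ((q : ℝ) / p)
    (q : ℝ) hqR.le (by
      intro i hi _
      have hiR : (i : ℝ) < 4 * n := by exact_mod_cast hi
      have hx : (i : ℝ) / p < 1 / 2 := by rw [div_lt_div_iff₀ hpR (by norm_num)]; linarith
      have := fib1 (δ := δ) hp hq i hx
      have e : (q : ℝ) / p * i = q * (i / p) := by ring
      rw [e]
      linarith) (by
      intro i hi
      have hiR : (i : ℝ) < 4 * n := by exact_mod_cast hi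
      have hx : (i : ℝ) / p < 1 / 2 := by rw [div_lt_div_iff₀ hpR (by norm_num)]; linarith
      have e : (q : ℝ) / p * i = q * (i / p) := by ring
      rw [e]
      nlinarith)
  have r2 := win (fun i => ((fib δ p q (4 * n + i)).card : ℝ)) (fun i => hnn _) n t
    (q * (1 - 4 * n / p) - 2) (-(q : ℝ) / p) (2 * q : ℝ) (by positivity) (by
      intro i hi hti
      have hiR : (i : ℝ) < n := by exact_mod_cast hi
      have htR : (t : ℝ) ≤ i := by exact_mod_cast hti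
      have e0 : ((4 * n + i : ℕ) : ℝ) / p = (4 * n + i) / p := by push_cast; ring
      have hx1 : 1 / 2 + δ < ((4 * n + i : ℕ) : ℝ) / p := by
        rw [e0, lt_div_iff₀ hpR]; linarith
      have hx2 : ((4 * n + i : ℕ) : ℝ) / p < 5 / 8 := by
        rw [e0, div_lt_div_iff₀ hpR (by norm_num)]; linarith
      have := fib2 hδ hq (4 * n + i) hx1 hx2
      rw [e0] at this
      have e : (q * (1 - 4 * n / p) - 2 : ℝ) + (-(q : ℝ) / p) * i =
        q * (1 - (4 * n + i) / p) - 2 := by ring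
      rw [e]
      exact this) (by
      intro i hi
      have hx0 : 0 ≤ ((4 : ℝ) * n + i) / p := by positivity
      have e : (q * (1 - 4 * n / p) - 2 : ℝ) + (-(q : ℝ) / p) * i =
        q * (1 - (4 * n + i) / p) - 2 := by ring
      rw [e]
      nlinarith)
  have r3 := win (fun i => ((fib δ p q (4 * n + n + i)).card : ℝ)) (fun i => hnn _) n t
    (q * (5 * n / p - 1 / 4) - 2) ((q : ℝ) / p) (2 * q : ℝ) (by positivity) (by
      intro i hi hti
      have hiR : (i : ℝ) < n := by exact_mod_cast hi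
      have htR : (t : ℝ) ≤ i := by exact_mod_cast hti
      have e0 : ((4 * n + n + i : ℕ) : ℝ) / p = (5 * n + i) / p := by push_cast; ring
      have hx1 : 5 / 8 + δ < ((4 * n + n + i : ℕ) : ℝ) / p := by
        rw [e0, lt_div_iff₀ hpR]; linarith
      have hx2 : ((4 * n + n + i : ℕ) : ℝ) / p < 3 / 4 := by
        rw [e0, div_lt_div_iff₀ hpR (by norm_num)]; linarith
      have := fib3 hδ hq (4 * n + n + i) hx1 hx2
      rw [e0] at this
      have e : (q * (5 * n / p - 1 / 4) - 2 : ℝ) + ((q : ℝ) / p) * i =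
        q * ((5 * n + i) / p - 1 / 4) - 2 := by ring
      rw [e]
      exact this) (by
      intro i hi
      have hiR : (i : ℝ) < n := by exact_mod_cast hi
      have hx0 : ((5 : ℝ) * n + i) / p ≤ 1 := by rw [div_le_one hpR]; linarith
      have e : (q * (5 * n / p - 1 / 4) - 2 : ℝ) + ((q : ℝ) / p) * i =
        q * ((5 * n + i) / p - 1 / 4) - 2 := by ring
      rw [e]
      nlinarith)
  have r4 := win (fun i => ((fib δ p q (4 * n + n + n + i)).card : ℝ)) (fun i => hnn _) (2 * n) t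
    (q * (2 - 12 * n / p) - 2) (-(2 * q : ℝ) / p) (2 * q : ℝ) (by positivity) (by
      intro i hi hti
      have hiR : (i : ℝ) < 2 * n := by exact_mod_cast hi
      have htR : (t : ℝ) ≤ i := by exact_mod_cast hti
      have e0 : ((4 * n + n + n + i : ℕ) : ℝ) / p = (6 * n + i) / p := by push_cast; ring
      have hx1 : 3 / 4 + δ < ((4 * n + n + n + i : ℕ) : ℝ) / p := by
        rw [e0, lt_div_iff₀ hpR]; linarith
      have hx2 : ((4 * n + n + n + i : ℕ) : ℝ) / p < 1 := by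
        rw [e0, div_lt_one hpR]; linarith
      have := fib4 hδ hq (4 * n + n + n + i) hx1 hx2
      rw [e0] at this
      have e : (q * (2 - 12 * n / p) - 2 : ℝ) + (-(2 * q : ℝ) / p) * i =
        q * (2 - 2 * ((6 * n + i) / p)) - 2 := by ring
      rw [e]
      exact this) (by
      intro i hi
      have hx0 : 0 ≤ ((6 : ℝ) * n + i) / p := by positivity
      have e : (q * (2 - 12 * n / p) - 2 : ℝ) + (-(2 * q : ℝ) / p) * i =
        q * (2 - 2 * ((6 * n + i) / p)) - 2 := by ring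
      rw [e]
      nlinarith)
  push_cast at r1 r4
  have h5 : (t : ℝ) * (2 * q) ≤ (δ * p + 9) * (2 * q) := by
    apply mul_le_mul_of_nonneg_right ht2 (by positivity)
  have h6 : (δ * p + 9) * (2 * (q : ℝ)) = 2 * (δ * (p * q)) + 18 * q := by ring
  have h7 : (19 / 64 - 6 * δ) * ((p : ℝ) * q) = 19 / 64 * (p * q) - 6 * (δ * (p * q)) := by ring
  rw [h7]
  have h8 : (0 : ℝ) < p * q := by positivity
  linarith

end Vale.Agent.P057.H933
end
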