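import Vale.Agent.P057.Bdl.B1
import Vale.Agent.P057.H933.Cnt

set_option linter.all false

section

open Finset

namespace Vale.Agent.P057.H933

open Vale.Agent.P057.Lower

/-- a set without three term progressions in `[0, W)` of density at least `y` -/
def Dn (W : ℕ) (y : ℝ) : Prop :=
  ∃ A : Finset ℤ, A ⊆ Finset.Ico 0 (W : ℤ) ∧
    (∀ a ∈ A, ∀ b ∈ A, ∀ c ∈ A, a + c = 2 * b → a = b) ∧ (W : ℝ) * y ≤ A.card

theorem Dn.mono {W : ℕ} {x y : ℝ} (h : Dn W x) (hxy : y ≤ x) : Dn W y := by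
  obtain ⟨A, h1, h2, h3⟩ := h
  exact ⟨A, h1, h2, le_trans (mul_le_mul_of_nonneg_left hxy (by positivity)) h3⟩

/-- the vectors with all their pairs in the blocks -/
noncomputable def vec (r : ℕ) (δ : ℝ) (p : Fin r ⊕ Fin r → ℕ) : Finset (Fin r ⊕ Fin r → ℤ) :=
  (Fintype.piFinset (fun j : Fin r => blk δ (p (Sum.inl j)) (p (Sum.inr j)))).image
    (fun f => Sum.elim (fun j => (f j).1) (fun j => (f j).2))

theorem mem_vec {r : ℕ} {δ : ℝ} {p : Fin r ⊕ Fin r → ℕ} {v : Fin r ⊕ Fin r → ℤ}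
    (h : v ∈ vec r δ p) (j : Fin r) :
    (v (Sum.inl j), v (Sum.inr j)) ∈ blk δ (p (Sum.inl j)) (p (Sum.inr j)) := by
  obtain ⟨f, hf, rfl⟩ := Finset.mem_image.1 h
  exact Fintype.mem_piFinset.1 hf j

theorem card_vec (r : ℕ) (δ : ℝ) (p : Fin r ⊕ Fin r → ℕ) :
    (vec r δ p).card = ∏ j : Fin r, (blk δ (p (Sum.inl j)) (p (Sum.inr j))).card := by
  unfold vec
  rw [Finset.card_image_of_injective, Fintype.card_piFinset]
  intro f g h
  funext j
  apply Prod.ext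
  · exact congrFun h (Sum.inl j)
  · exact congrFun h (Sum.inr j)

theorem level3 (r : ℕ) (p : Fin r ⊕ Fin r → ℕ) (hp : Pairwise (Function.onFun Nat.Coprime p))
    (hp0 : ∀ i, 0 < p i) (hodd : ∀ i, p i % 2 = 1)
    (hpq : ∀ j, p (Sum.inr j) ≤ 8 * p (Sum.inl j)) {δ : ℝ} (hδ : 0 < δ) {K : ℤ}
    (hK : 256 / δ ^ 2 ≤ (K : ℝ)) (L : ℕ) (hL : 0 < L)
    (hF : ∀ v ∈ vec r δ p, 0 ≤ ∑ j : Fin r, wgt K (p (Sum.inl j)) (p (Sum.inr j))
      (v (Sum.inl j), v (Sum.inr j)) ∧ ∑ j : Fin r, wgt K (p (Sum.inl j)) (p (Sum.inr j))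
      (v (Sum.inl j), v (Sum.inr j)) < (L : ℤ)) (W : ℕ) (hW : W ≤ ∏ i, p i) :
    Dn W ((∏ j : Fin r, ((blk δ (p (Sum.inl j)) (p (Sum.inr j))).card : ℝ) /
      (p (Sum.inl j) * p (Sum.inr j))) * (1 / (2 * L))) := by
  classical
  obtain ⟨M, crt, hM, hM0, hcrt, hinj⟩ := crt_exists p hp hp0
  have hV : ∀ v ∈ vec r δ p, ∀ v' ∈ vec r δ p, crt v = crt v' → v = v' := by
    intro v hv v' hv' h
    have h1 := hinj v v' h
    funext i
    rcases i with j | j
    · exact congrArg Prod.fst (blk_inj hδ.le (hp0 _) (hp0 _) (mem_vec hv j) (mem_vec hv' j)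
        (h1 _) (h1 _))
    · exact congrArg Prod.snd (blk_inj hδ.le (hp0 _) (hp0 _) (mem_vec hv j) (mem_vec hv' j)
        (h1 _) (h1 _))
  have hB : ({0} : Finset ℤ) ⊆ Finset.Ico 0 (L : ℤ) := by
    intro x hx
    rw [Finset.mem_singleton] at hx
    rw [hx, Finset.mem_Ico]
    omega
  obtain ⟨s, t, A, hA, hprop, hcard⟩ := pigeon_count M hM0 crt (vec r δ p) hV
    (fun v => ∑ j : Fin r, wgt K (p (Sum.inl j)) (p (Sum.inr j)) (v (Sum.inl j), v (Sum.inr j)))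
    L hL hF {0} hB W
  refine ⟨A, hA, ?_, ?_⟩
  · intro a ha b hb c hc habc
    obtain ⟨va, hva, hsa, hta⟩ := hprop a ha
    obtain ⟨vb, hvb, hsb, htb⟩ := hprop b hb
    obtain ⟨vc, hvc, hsc, htc⟩ := hprop c hc
    have : NeZero M := ⟨hM0.ne'⟩
    have hd : ∀ (y : ℤ) (v : Fin r ⊕ Fin r → ℤ), crt v - (y : ZMod M) = s →
        ∀ i, (p i : ℤ) ∣ ((s.val : ℤ) + y) - v i := by
      intro y v h
      apply hcrt
      rw [Int.cast_add, Int.cast_natCast, ZMod.natCast_val, ZMod.cast_id', id_eq, ← h,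
        sub_add_cancel]
    have hdv : ∀ i, (p i : ℤ) ∣ va i + vc i - 2 * vb i := by
      intro i
      have h1 := hd a va hsa i
      have h2 := hd b vb hsb i
      have h3 := hd c vc hsc i
      have e : va i + vc i - 2 * vb i = 2 * (((s.val : ℤ) + b) - vb i) -
          (((s.val : ℤ) + a) - va i) - (((s.val : ℤ) + c) - vc i) := by linarith
      rw [e]
      exact dvd_sub (dvd_sub (dvd_mul_of_dvd_right h2 _) h1) h3
    have hg : ∀ j : Fin r, 0 ≤ wgt K (p (Sum.inl j)) (p (Sum.inr j)) (va (Sum.inl j),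
        va (Sum.inr j)) + wgt K (p (Sum.inl j)) (p (Sum.inr j)) (vc (Sum.inl j),
        vc (Sum.inr j)) - 2 * wgt K (p (Sum.inl j)) (p (Sum.inr j)) (vb (Sum.inl j),
        vb (Sum.inr j)) ∧ (wgt K (p (Sum.inl j)) (p (Sum.inr j)) (va (Sum.inl j),
        va (Sum.inr j)) + wgt K (p (Sum.inl j)) (p (Sum.inr j)) (vc (Sum.inl j),
        vc (Sum.inr j)) - 2 * wgt K (p (Sum.inl j)) (p (Sum.inr j)) (vb (Sum.inl j),
        vb (Sum.inr j)) = 0 → (va (Sum.inl j), va (Sum.inr j)) = (vc (Sum.inl j),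
        vc (Sum.inr j))) := by
      intro j
      exact blk_gap hδ hK (hp0 _) (hp0 _) (hodd _) (hpq j) (mem_vec hva j) (mem_vec hvb j)
        (mem_vec hvc j) (hdv _) (hdv _)
    have hsum : ∑ j : Fin r, (wgt K (p (Sum.inl j)) (p (Sum.inr j)) (va (Sum.inl j),
        va (Sum.inr j)) + wgt K (p (Sum.inl j)) (p (Sum.inr j)) (vc (Sum.inl j),
        vc (Sum.inr j)) - 2 * wgt K (p (Sum.inl j)) (p (Sum.inr j)) (vb (Sum.inl j),
        vb (Sum.inr j))) = 0 := by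
      rw [Finset.sum_sub_distrib, Finset.sum_add_distrib, ← Finset.mul_sum]
      have h1 := Finset.mem_singleton.1 hta
      have h2 := Finset.mem_singleton.1 htb
      have h3 := Finset.mem_singleton.1 htc
      linarith
    have hz := (Finset.sum_eq_zero_iff_of_nonneg (fun j _ => (hg j).1)).1 hsum
    have heq : va = vc := by
      funext i
      rcases i with j | j
      · exact congrArg Prod.fst ((hg j).2 (hz j (Finset.mem_univ j)))
      · exact congrArg Prod.snd ((hg j).2 (hz j (Finset.mem_univ j)))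
    have hac : ((a - c : ℤ) : ZMod M) = 0 := by
      have h1 : crt va - (a : ZMod M) = crt va - (c : ZMod M) := by
        rw [hsa, heq, hsc]
      push_cast
      have := sub_right_injective h1
      rw [this, sub_self]
    have hdvd : (M : ℤ) ∣ a - c := (ZMod.intCast_zmod_eq_zero_iff_dvd _ _).1 hac
    have ha' := Finset.mem_Ico.1 (hA ha)
    have hc' := Finset.mem_Ico.1 (hA hc)
    have hWM : (W : ℤ) ≤ M := by
      rw [hM]
      exact_mod_cast hW
    have hlt : |a - c| < (M : ℤ) := by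
      rw [abs_lt]
      constructor <;> linarith [ha'.1, ha'.2, hc'.1, hc'.2]
    have := Int.eq_zero_of_abs_lt_dvd hdvd hlt
    linarith
  · refine le_trans (le_of_eq ?_) hcard
    have hMR : (M : ℝ) = (∏ j : Fin r, (p (Sum.inl j) : ℝ)) * ∏ j : Fin r, (p (Sum.inr j) : ℝ) := by
      rw [hM, Fintype.prod_sum_type]
      push_cast
      rfl
    rw [Finset.prod_div_distrib, card_vec, Finset.card_singleton, hMR, Finset.prod_mul_distrib]
    push_cast
    have hP1 : (∏ j : Fin r, (p (Sum.inl j) : ℝ)) ≠ 0 :=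
      Finset.prod_ne_zero_iff.2 (fun j _ => by exact_mod_cast (hp0 _).ne')
    have hP2 : (∏ j : Fin r, (p (Sum.inr j) : ℝ)) ≠ 0 :=
      Finset.prod_ne_zero_iff.2 (fun j _ => by exact_mod_cast (hp0 _).ne')
    have hL' : (L : ℝ) ≠ 0 := by exact_mod_cast hL.ne'
    field_simp

/-- the cost of one coordinate -/
noncomputable def cst : ℝ := Real.log (64 / 19) / 2

theorem exp_cst : Real.exp (-(2 * cst)) = 19 / 64 := by
  unfold cst
  rw [mul_div_cancel₀ _ (two_ne_zero), Real.exp_neg, Real.exp_log (by norm_num)]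
  norm_num

theorem cst_pos : 0 < cst := by
  unfold cst
  have : 0 < Real.log (64 / 19) := Real.log_pos (by norm_num)
  linarith

/-- the density of one block -/
theorem blk_dens (η : ℝ) (hη : 0 < η) : ∃ δ : ℝ, 0 < δ ∧ ∃ m0 : ℕ, ∀ m : ℕ, m0 ≤ m →
    ∀ p q : ℕ, m < p → m < q →
      Real.exp (-(2 * cst + η)) ≤ ((blk δ p q).card : ℝ) / (p * q) := by
  have hlt : Real.exp (-η) < 1 := Real.exp_lt_one_iff.2 (by linarith)
  have he : 0 < Real.exp (-η) := Real.exp_pos _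
  obtain ⟨m0, hm0⟩ := eventually_div_le 160 (19 / 64 * (1 - Real.exp (-η)) / 2) (by linarith)
  refine ⟨19 / 64 * (1 - Real.exp (-η)) / 12, by linarith, m0 + 1, fun m hm p q hp hq => ?_⟩
  have hmR : (0 : ℝ) < m := by exact_mod_cast (by omega : 0 < m)
  have hpm : (m : ℝ) ≤ p := by exact_mod_cast hp.le
  have hqm : (m : ℝ) ≤ q := by exact_mod_cast hq.le
  have hpR : (0 : ℝ) < p := by linarith
  have hqR : (0 : ℝ) < q := by linarith
  have h1 := blk_card (δ := 19 / 64 * (1 - Real.exp (-η)) / 12) (by linarith)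
    (by omega : 0 < p) (by omega : 0 < q)
  have h2 := hm0 m (by omega)
  rw [div_le_iff₀ hmR] at h2
  have h3 : Real.exp (-(2 * cst + η)) = 19 / 64 * Real.exp (-η) := by
    rw [neg_add, Real.exp_add, exp_cst]
  rw [h3, le_div_iff₀ (by positivity)]
  generalize Real.exp (-η) = x at h1 h2 hlt he ⊢
  refine le_trans ?_ h1
  have h4 : 80 * (p + q : ℝ) ≤ (19 / 64 * (1 - x) / 2) * (p * q) := by
    have g0 : 0 ≤ 19 / 64 * (1 - x) / 2 := by linarith
    have g1 : 160 * (p : ℝ) ≤ (19 / 64 * (1 - x) / 2) * (p * q) := by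
      calc 160 * (p : ℝ) ≤ (19 / 64 * (1 - x) / 2 * m) * p :=
            mul_le_mul_of_nonneg_right h2 hpR.le
        _ ≤ (19 / 64 * (1 - x) / 2 * q) * p :=
            mul_le_mul_of_nonneg_right (mul_le_mul_of_nonneg_left hqm g0) hpR.le
        _ = _ := by ring
    have g2 : 160 * (q : ℝ) ≤ (19 / 64 * (1 - x) / 2) * (p * q) := by
      calc 160 * (q : ℝ) ≤ (19 / 64 * (1 - x) / 2 * m) * q :=
            mul_le_mul_of_nonneg_right h2 hqR.le
        _ ≤ (19 / 64 * (1 - x) / 2 * p) * q :=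
            mul_le_mul_of_nonneg_right (mul_le_mul_of_nonneg_left hpm g0) hqR.le
        _ = _ := by ring
    linarith
  have h5 : (19 / 64 - 6 * (19 / 64 * (1 - x) / 12)) * ((p : ℝ) * q) =
      19 / 64 * x * (p * q) + (19 / 64 * (1 - x) / 2) * (p * q) := by ring
  rw [h5]
  linarith

/-- the trivial bottom level -/
def Bt (L : ℕ) (x : ℝ) : Prop := (L : ℝ) * x * Real.log L ≤ 1

theorem one_level3 (η : ℝ) (hη : 0 < η) : ∃ m0 : ℕ, ∀ m : ℕ, m0 ≤ m → ∀ d : ℕ, 1 ≤ d →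
    d ^ 2 ≤ m → ∀ W : ℕ, 2 ^ 1 * W ≤ m ^ d → ∀ x : ℝ, Bt (128 * d * m ^ 2 + 1) x →
        Dn W (Real.exp (-((cst + η) * d)) * (x / 2)) := by
  classical
  obtain ⟨δ, hδ, m1, hm1⟩ := blk_dens η hη
  obtain ⟨K, hK, hK0⟩ : ∃ K : ℕ, 256 / δ ^ 2 ≤ (K : ℝ) ∧ 0 ≤ (K : ℤ) :=
    ⟨⌈256 / δ ^ 2⌉₊, Nat.le_ceil _, by positivity⟩
  obtain ⟨E, hE⟩ : ∃ E : ℕ, 8 * (3 * K + 131) * Real.exp (cst + η) ≤ (E : ℝ) :=
    ⟨⌈8 * (3 * K + 131) * Real.exp (cst + η)⌉₊, Nat.le_ceil _⟩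
  obtain ⟨m2, hm2⟩ : ∃ m2 : ℕ, Real.exp E ≤ (m2 : ℝ) := ⟨⌈Real.exp E⌉₊, Nat.le_ceil _⟩
  refine ⟨max (max m1 m2) (10 ^ 6), fun m hm d hd hdm W hW x hx => ?_⟩
  have hmm1 : m1 ≤ m := le_trans (le_max_left _ _) (le_trans (le_max_left _ _) hm)
  have hmm2 : m2 ≤ m := le_trans (le_max_right _ _) (le_trans (le_max_left _ _) hm)
  have hm6 : 10 ^ 6 ≤ m := le_trans (le_max_right _ _) hm
  obtain ⟨r, hr1, hr2⟩ : ∃ r : ℕ, d ≤ 2 * r ∧ 2 * r ≤ d + 1 := ⟨(d + 1) / 2, by omega, by omega⟩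
  obtain ⟨P, hPc, hP⟩ := primes_exist (4 * m) (r + r) (by omega) (by nlinarith)
  let e := P.equivFinOfCardEq hPc
  let p : Fin r ⊕ Fin r → ℕ := fun i => (e.symm (finSumFinEquiv i) : P)
  have hpP : ∀ i, (p i).Prime ∧ 4 * m < p i ∧ p i ≤ 32 * m := by
    intro i
    have := hP (p i) (e.symm (finSumFinEquiv i)).2
    exact ⟨this.1, this.2.1, by have := this.2.2; omega⟩
  have hinj : Function.Injective p := by
    intro i j hij
    exact finSumFinEquiv.injective (e.symm.injective (Subtype.ext hij))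
  have hcop : Pairwise (Function.onFun Nat.Coprime p) := by
    intro i j hij
    exact (Nat.coprime_primes (hpP i).1 (hpP j).1).2 (fun h => hij (hinj h))
  have hodd : ∀ i, p i % 2 = 1 := fun i =>
    (hpP i).1.eq_two_or_odd.resolve_left (by have := (hpP i).2.1; omega)
  have hp0 : ∀ i, 0 < p i := fun i => (hpP i).1.pos
  have hpq : ∀ j, p (Sum.inr j) ≤ 8 * p (Sum.inl j) := by
    intro j
    have h1 := (hpP (Sum.inr j)).2.2
    have h2 := (hpP (Sum.inl j)).2.1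
    omega
  have hWM : W ≤ ∏ i, p i := by
    have h1 : m ^ (r + r) ≤ ∏ i, p i := by
      have := Finset.pow_card_le_prod (Finset.univ : Finset (Fin r ⊕ Fin r)) p m
        (fun i _ => by have := (hpP i).2.1; omega)
      rwa [Finset.card_univ, Fintype.card_sum, Fintype.card_fin] at this
    have h2 : m ^ d ≤ m ^ (r + r) := Nat.pow_le_pow_right (by omega) (by omega)
    omega
  have hF : ∀ v ∈ vec r δ p, 0 ≤ ∑ j : Fin r, wgt (K : ℤ) (p (Sum.inl j)) (p (Sum.inr j))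
      (v (Sum.inl j), v (Sum.inr j)) ∧ ∑ j : Fin r, wgt (K : ℤ) (p (Sum.inl j)) (p (Sum.inr j))
      (v (Sum.inl j), v (Sum.inr j)) < ((d * ((3 * K + 130) * (32 * m) ^ 2) + 1 : ℕ) : ℤ) := by
    intro v hv
    have hb : ∀ j : Fin r, 0 ≤ wgt (K : ℤ) (p (Sum.inl j)) (p (Sum.inr j)) (v (Sum.inl j),
        v (Sum.inr j)) ∧ wgt (K : ℤ) (p (Sum.inl j)) (p (Sum.inr j)) (v (Sum.inl j),
        v (Sum.inr j)) ≤ (3 * (K : ℤ) + 130) * ((32 * m : ℕ) : ℤ) ^ 2 := fun j =>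
      wgt_bounds hδ.le hK0 (hp0 _) (hp0 _) (hpP _).2.2 (hpP _).2.2 (mem_vec hv j)
    refine ⟨Finset.sum_nonneg (fun j _ => (hb j).1), ?_⟩
    have h1 := Finset.sum_le_sum (s := (Finset.univ : Finset (Fin r))) (fun j _ => (hb j).2)
    rw [Finset.sum_const, Finset.card_univ, Fintype.card_fin, nsmul_eq_mul] at h1
    have h2 : (r : ℤ) * ((3 * (K : ℤ) + 130) * ((32 * m : ℕ) : ℤ) ^ 2) ≤
        d * ((3 * (K : ℤ) + 130) * ((32 * m : ℕ) : ℤ) ^ 2) := by
      apply mul_le_mul_of_nonneg_right _ (by positivity)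
      have : r ≤ d := by omega
      exact_mod_cast this
    push_cast at h1 h2 ⊢
    linarith
  have hlev := level3 r p hcop hp0 hodd hpq hδ (K := (K : ℤ)) (by exact_mod_cast hK)
    (d * ((3 * K + 130) * (32 * m) ^ 2) + 1) (by positivity) hF W hWM
  refine hlev.mono ?_
  have hm1R : (1 : ℝ) ≤ m := by exact_mod_cast (by omega : 1 ≤ m)
  have hd1R : (1 : ℝ) ≤ d := by exact_mod_cast hd
  have h1 : Real.exp (-((2 * cst + η) * r)) ≤
      ∏ j : Fin r, ((blk δ (p (Sum.inl j)) (p (Sum.inr j))).card : ℝ) /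
        (p (Sum.inl j) * p (Sum.inr j)) := by
    have e1 : Real.exp (-((2 * cst + η) * r)) = ∏ _j : Fin r, Real.exp (-(2 * cst + η)) := by
      rw [Finset.prod_const, Finset.card_univ, Fintype.card_fin, ← Real.exp_nat_mul]
      congr 1
      ring
    rw [e1]
    refine Finset.prod_le_prod (fun j _ => (Real.exp_pos _).le) (fun j _ => ?_)
    exact hm1 m hmm1 _ _ (by have := (hpP (Sum.inl j)).2.1; omega)
      (by have := (hpP (Sum.inr j)).2.1; omega)
  have h2 : Real.exp (-((cst + η) * d)) * Real.exp (-(cst + η)) ≤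
      Real.exp (-((2 * cst + η) * r)) := by
    rw [← Real.exp_add]
    apply Real.exp_le_exp.2
    have g1 : 2 * (r : ℝ) ≤ d + 1 := by exact_mod_cast hr2
    have g2 := cst_pos
    have g3 : (cst + η) * (2 * r) ≤ (cst + η) * (d + 1) :=
      mul_le_mul_of_nonneg_left g1 (by linarith)
    have g4 : 0 ≤ η * (r : ℝ) := by positivity
    nlinarith
  have hL : (0 : ℝ) < ((d * ((3 * K + 130) * (32 * m) ^ 2) + 1 : ℕ) : ℝ) := by positivity
  have h3 : x / 2 ≤ Real.exp (-(cst + η)) *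
      (1 / (2 * ((d * ((3 * K + 130) * (32 * m) ^ 2) + 1 : ℕ) : ℝ))) := by
    have hK0R : (0 : ℝ) ≤ K := by positivity
    have g0 : ((d * ((3 * K + 130) * (32 * m) ^ 2) + 1 : ℕ) : ℝ) ≤
        8 * (3 * K + 131) * ((128 * d * m ^ 2 + 1 : ℕ) : ℝ) := by
      push_cast
      have g : (0 : ℝ) ≤ d * m ^ 2 := by positivity
      nlinarith
    have g1 : (E : ℝ) ≤ Real.log ((128 * d * m ^ 2 + 1 : ℕ) : ℝ) := by
      rw [Real.le_log_iff_exp_le (by positivity)]
      have g2 : (m2 : ℝ) ≤ m := by exact_mod_cast hmm2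
      have g3 : (m : ℝ) ≤ ((128 * d * m ^ 2 + 1 : ℕ) : ℝ) := by
        push_cast
        have g : (1 : ℝ) * 1 ≤ d * m := by
          apply mul_le_mul hd1R hm1R (by norm_num) (by linarith)
        nlinarith
      linarith
    rcases le_or_gt x 0 with hx0 | hx0
    · have : 0 ≤ Real.exp (-(cst + η)) *
        (1 / (2 * ((d * ((3 * K + 130) * (32 * m) ^ 2) + 1 : ℕ) : ℝ))) := by positivity
      linarith
    · have g4 : x * ((d * ((3 * K + 130) * (32 * m) ^ 2) + 1 : ℕ) : ℝ) * Real.exp (cst + η) ≤ 1 := by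
        unfold Bt at hx
        have g5 : (0 : ℝ) < ((128 * d * m ^ 2 + 1 : ℕ) : ℝ) := by positivity
        calc x * ((d * ((3 * K + 130) * (32 * m) ^ 2) + 1 : ℕ) : ℝ) * Real.exp (cst + η)
            ≤ x * (8 * (3 * K + 131) * ((128 * d * m ^ 2 + 1 : ℕ) : ℝ)) * Real.exp (cst + η) := by
              apply mul_le_mul_of_nonneg_right _ (Real.exp_pos _).le
              exact mul_le_mul_of_nonneg_left g0 hx0.le
          _ = (((128 * d * m ^ 2 + 1 : ℕ) : ℝ) * x) *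
              (8 * (3 * K + 131) * Real.exp (cst + η)) := by ring
          _ ≤ (((128 * d * m ^ 2 + 1 : ℕ) : ℝ) * x) * E :=
              mul_le_mul_of_nonneg_left hE (by positivity)
          _ ≤ (((128 * d * m ^ 2 + 1 : ℕ) : ℝ) * x) *
              Real.log ((128 * d * m ^ 2 + 1 : ℕ) : ℝ) :=
              mul_le_mul_of_nonneg_left g1 (by positivity)
          _ ≤ 1 := hx
      rw [Real.exp_neg, ← one_div, ← mul_div_assoc, mul_one, div_div, le_div_iff₀ (by positivity)]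
      nlinarith
  calc Real.exp (-((cst + η) * d)) * (x / 2)
      ≤ Real.exp (-((cst + η) * d)) * (Real.exp (-(cst + η)) *
        (1 / (2 * ((d * ((3 * K + 130) * (32 * m) ^ 2) + 1 : ℕ) : ℝ)))) :=
        mul_le_mul_of_nonneg_left h3 (Real.exp_pos _).le
    _ = (Real.exp (-((cst + η) * d)) * Real.exp (-(cst + η))) *
        (1 / (2 * ((d * ((3 * K + 130) * (32 * m) ^ 2) + 1 : ℕ) : ℝ))) := by ring
    _ ≤ _ := mul_le_mul_of_nonneg_right (h2.trans h1) (by positivity)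

theorem bottom (ε : ℝ) (hε : 0 < ε) : ∃ N0 : ℕ, ∀ N : ℕ, N0 ≤ N →
    Bt N (Real.exp (-((1 + ε) * (1 : ℕ) * (1 * Real.log N) ^ ((1 : ℝ) / (1 : ℕ))))) := by
  have h1 := (isLittleO_log_rpow_atTop hε).bound (c := 1) one_pos
  have h2 := tendsto_natCast_atTop_atTop (R := ℝ) |>.eventually h1
  obtain ⟨N0, hN0⟩ := Filter.eventually_atTop.1 h2
  refine ⟨max N0 1, fun N hN => ?_⟩
  have hN1 : 1 ≤ N := le_trans (le_max_right _ _) hN
  have hNR : (0 : ℝ) < N := by exact_mod_cast hN1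
  have h3 := hN0 N (le_trans (le_max_left _ _) hN)
  have hlog : 0 ≤ Real.log N := Real.log_natCast_nonneg N
  rw [Real.norm_of_nonneg hlog, Real.norm_of_nonneg (by positivity), one_mul] at h3
  unfold Bt
  simp only [Nat.cast_one, mul_one, one_mul, div_one, Real.rpow_one]
  have e1 : Real.exp (-((1 + ε) * Real.log N)) = (N : ℝ)⁻¹ * ((N : ℝ) ^ ε)⁻¹ := by
    rw [Real.rpow_def_of_pos hNR, ← Real.exp_neg, ← Real.exp_log hNR, ← Real.exp_neg,
      ← Real.exp_add, Real.log_exp]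
    congr 1
    ring
  rw [e1, mul_inv_cancel_left₀ hNR.ne']
  have h4 : (0 : ℝ) < (N : ℝ) ^ ε := by positivity
  rw [inv_mul_le_iff₀ h4, mul_one]
  exact h3

theorem asy3 (ε : ℝ) (hε : 0 < ε) : ∃ N0 : ℕ, ∀ W : ℕ, N0 ≤ W →
    Dn W (Real.exp (-((1 + ε) * 2 * Real.sqrt (Real.log (64 / 19) * Real.log W)))) := by
  obtain ⟨N0, hN0⟩ := step_asym 1 le_rfl cst 1 cst_pos one_pos 1 Dn Bt
    (fun W x y h hxy => h.mono hxy) one_level3 bottom ε hε
  refine ⟨N0, fun W hW => ?_⟩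
  have h := hN0 W hW
  have e : (2 * cst * 1 * Real.log W) ^ ((1 : ℝ) / ((1 + 1 : ℕ) : ℝ)) =
      Real.sqrt (Real.log (64 / 19) * Real.log W) := by
    rw [Real.sqrt_eq_rpow]
    unfold cst
    push_cast
    norm_num
    congr 1
    ring
  rw [e] at h
  push_cast at h
  norm_num at h ⊢
  exact h

theorem lower_three (ε : ℝ) (hε : 0 < ε) : ∃ N₀ : ℕ, ∀ N : ℕ, N₀ ≤ N →
    ∃ A : Finset ℕ, A ⊆ Finset.Icc 1 N ∧
      (∀ a d : ℕ, 0 < d → ¬ (a ∈ A ∧ a + d ∈ A ∧ a + 2 * d ∈ A)) ∧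
      (N : ℝ) * Real.exp (-((1 + ε) * 2 * Real.sqrt (Real.log (64 / 19) * Real.log N))) ≤
        A.card := by
  obtain ⟨N0, hN0⟩ := asy3 ε hε
  refine ⟨N0, fun N hN => ?_⟩
  obtain ⟨A, hA, hAf, hAc⟩ := hN0 N hN
  refine ⟨A.image (fun a => a.toNat + 1), ?_, ?_, ?_⟩
  · intro x hx
    obtain ⟨a, ha, rfl⟩ := Finset.mem_image.1 hx
    have := Finset.mem_Ico.1 (hA ha)
    rw [Finset.mem_Icc]
    omega
  · rintro a d hd ⟨h1, h2, h3⟩
    obtain ⟨x, hx, hx'⟩ := Finset.mem_image.1 h1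
    obtain ⟨y, hy, hy'⟩ := Finset.mem_image.1 h2
    obtain ⟨z, hz, hz'⟩ := Finset.mem_image.1 h3
    have g1 := Finset.mem_Ico.1 (hA hx)
    have g2 := Finset.mem_Ico.1 (hA hy)
    have g3 := Finset.mem_Ico.1 (hA hz)
    have := hAf x hx y hy z hz (by omega)
    omega
  · rw [Finset.card_image_of_injOn]
    · exact hAc
    · intro x hx y hy hxy
      have h1 := Finset.mem_Ico.1 (hA (Finset.mem_coe.1 hx))
      have h2 := Finset.mem_Ico.1 (hA (Finset.mem_coe.1 hy))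
      have h3 : x.toNat + 1 = y.toNat + 1 := hxy
      omega

end Vale.Agent.P057.H933
end
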