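import Mathlib

set_option linter.all false

section

open Finset

namespace Vale.Agent.P057.H933

/-- the region of the torus (base coordinate `x`, fibre coordinate `b`) -/
def InS (δ x b : ℝ) : Prop :=
  (0 < x ∧ x < 1 / 2 ∧ -(x / 2) < b ∧ b < x / 2) ∨
  (1 / 2 + δ < x ∧ x < 5 / 8 ∧
    ((x / 2 - 1 / 4 < b ∧ b < x / 2) ∨ (x / 2 - 1 / 2 < b ∧ b < 1 / 4 - x / 2))) ∨
  (5 / 8 + δ < x ∧ x < 3 / 4 ∧
    ((x / 2 - 1 / 4 < b ∧ b < x / 2) ∨ (-(x / 2) < b ∧ b < x / 2 - 1 / 2))) ∨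
  (3 / 4 + δ < x ∧ x < 1 ∧
    ((x / 2 - 1 / 4 < b ∧ b < 3 / 4 - x / 2) ∨ (x / 2 - 3 / 4 < b ∧ b < 1 / 4 - x / 2)))

/-- the envelope of the endpoints -/
theorem env_up {δ x b : ℝ} (hδ : 0 ≤ δ) (h : InS δ x b) : 0 < x ∧ x < 1 ∧ |b| < x / 2 := by
  rw [abs_lt]
  rcases h with ⟨h1, h2, h3, h4⟩ | ⟨h1, h2, ⟨h3, h4⟩ | ⟨h3, h4⟩⟩ | ⟨h1, h2, ⟨h3, h4⟩ | ⟨h3, h4⟩⟩ |
    ⟨h1, h2, ⟨h3, h4⟩ | ⟨h3, h4⟩⟩ <;>
  exact ⟨by linarith, by linarith, by linarith, by linarith⟩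

/-- the envelope of the midpoints -/
theorem env_mid {δ x b : ℝ} (hδ : 0 ≤ δ) (hx : 1 / 2 < x) (h : InS δ x b) :
    x - 1 / 2 < 2 * |b| ∧ 2 * |b| < 3 / 2 - x := by
  rcases h with ⟨h1, h2, h3, h4⟩ | ⟨h1, h2, ⟨h3, h4⟩ | ⟨h3, h4⟩⟩ | ⟨h1, h2, ⟨h3, h4⟩ | ⟨h3, h4⟩⟩ |
    ⟨h1, h2, ⟨h3, h4⟩ | ⟨h3, h4⟩⟩
  · exact ⟨by linarith, by linarith⟩
  · rw [abs_of_pos (by linarith)]; exact ⟨by linarith, by linarith⟩
  · rw [abs_of_neg (by linarith)]; exact ⟨by linarith, by linarith⟩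
  · rw [abs_of_pos (by linarith)]; exact ⟨by linarith, by linarith⟩
  · rw [abs_of_neg (by linarith)]; exact ⟨by linarith, by linarith⟩
  · rw [abs_of_pos (by linarith)]; exact ⟨by linarith, by linarith⟩
  · rw [abs_of_neg (by linarith)]; exact ⟨by linarith, by linarith⟩

/-- progressions that wrap backwards in the base are impossible -/
theorem blocked {δ x y z a b c : ℝ} (hδ : 0 ≤ δ) (hx : InS δ x a) (hy : InS δ y b)
    (hz : InS δ z c) (h1 : x + z - 2 * y = -1) (j : ℤ) (h2 : a + c - 2 * b = j) : False := by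
  obtain ⟨x1, x2, x3⟩ := env_up hδ hx
  obtain ⟨z1, z2, z3⟩ := env_up hδ hz
  have hy2 : 1 / 2 < y := by linarith
  obtain ⟨y1, y2⟩ := env_mid hδ hy2 hy
  have h3 : |a + c| < y - 1 / 2 := by
    have := abs_add_le a c
    linarith
  have h4 : a + c = 2 * b + j := by linarith
  have h5 : |2 * b| = 2 * |b| := by rw [abs_mul]; norm_num
  rcases eq_or_ne j 0 with hj | hj
  · rw [h4, hj] at h3
    push_cast at h3
    rw [add_zero, h5] at h3
    linarith
  · have h6 : (1 : ℝ) ≤ |(j : ℝ)| := by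
      have := Int.one_le_abs hj
      exact_mod_cast this
    have h7 : |(j : ℝ)| ≤ |2 * b + j| + |2 * b| := by
      have := abs_sub (2 * b + (j : ℝ)) (2 * b)
      rwa [add_sub_cancel_left] at this
    rw [h4] at h3
    rw [h5] at h7
    linarith

/-- the region of the base coordinate -/
noncomputable def rg (x : ℝ) : ℕ :=
  if x < 1 / 2 then 0 else if x < 5 / 8 then 1 else if x < 3 / 4 then 2 else 3

/-- the centre of the lifted fibre -/
noncomputable def cen (x : ℝ) : ℝ :=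
  if x < 1 / 2 then 0 else if x < 5 / 8 then x / 2 - 1 / 4 else if x < 3 / 4 then x - 1 / 4
    else 1 / 2

theorem cen_mid {x y z : ℝ} (h : rg x = rg z) (hy : x + z = 2 * y) :
    rg y = rg x ∧ cen x + cen z = 2 * cen y := by
  unfold rg at h
  unfold rg cen
  split_ifs at h ⊢ <;> first | (exfalso; linarith) | (exfalso; simp at h; done) |
    exact ⟨rfl, by linarith⟩

theorem rg_sep {δ x z a c : ℝ} (hδ : 0 < δ) (hx : InS δ x a) (hz : InS δ z c)
    (h : rg x ≠ rg z) : δ < |x - z| := by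
  have key : ∀ {x z a c : ℝ}, InS δ x a → InS δ z c → rg x ≠ rg z → x ≤ z → δ < z - x := by
    intro x z a c hx hz h hxz
    unfold rg at h
    rcases hx with ⟨h1, h2, -⟩ | ⟨h1, h2, -⟩ | ⟨h1, h2, -⟩ | ⟨h1, h2, -⟩ <;>
    rcases hz with ⟨g1, g2, -⟩ | ⟨g1, g2, -⟩ | ⟨g1, g2, -⟩ | ⟨g1, g2, -⟩ <;>
    first
      | linarith
      | (exfalso; apply h; split_ifs <;> first | rfl | (exfalso; linarith))
  rcases le_total x z with hxz | hxz
  · have := key hx hz h hxz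
    rw [abs_sub_comm]
    exact lt_of_lt_of_le this (le_abs_self _)
  · have := key hz hx h.symm hxz
    exact lt_of_lt_of_le this (le_abs_self _)

open Classical in
/-- the block -/
noncomputable def blk (δ : ℝ) (p q : ℕ) : Finset (ℤ × ℤ) :=
  ((Finset.Ioo (0 : ℤ) p) ×ˢ (Finset.Icc (-(q : ℤ)) q)).filter
    (fun s => InS δ ((s.1 : ℝ) / p) ((s.2 : ℝ) / q))

theorem mem_blk {δ : ℝ} {p q : ℕ} {s : ℤ × ℤ} : s ∈ blk δ p q ↔
    ((0 < s.1 ∧ s.1 < p) ∧ (-(q : ℤ) ≤ s.2 ∧ s.2 ≤ q)) ∧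
      InS δ ((s.1 : ℝ) / p) ((s.2 : ℝ) / q) := by
  unfold blk
  simp only [Finset.mem_filter, Finset.mem_product, Finset.mem_Ioo, Finset.mem_Icc]

/-- the lifted fibre coordinate -/
def lft (p q : ℕ) (s : ℤ × ℤ) : ℤ :=
  if 8 * s.1 < 5 * p then s.2 else if 0 < s.2 then 2 * s.2 else 2 * s.2 + q

/-- the weight -/
def wgt (K : ℤ) (p q : ℕ) (s : ℤ × ℤ) : ℤ :=
  (2 * K + 129) * p * s.1 + K * s.1 ^ 2 + (lft p q s) ^ 2

theorem lft_cen {δ : ℝ} (hδ : 0 ≤ δ) {p q : ℕ} (hp : 0 < p) (hq : 0 < q) {s : ℤ × ℤ}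
    (hs : s ∈ blk δ p q) :
    |(lft p q s : ℝ) / q - cen ((s.1 : ℝ) / p)| < 1 / 4 ∧ |(lft p q s : ℝ) / q| < 1 := by
  have hpR : (0 : ℝ) < p := by exact_mod_cast hp
  have hqR : (0 : ℝ) < q := by exact_mod_cast hq
  have h := (mem_blk.1 hs).2
  have e1 : 8 * s.1 < 5 * p ↔ (s.1 : ℝ) / p < 5 / 8 := by
    rw [div_lt_div_iff₀ hpR (by norm_num)]
    constructor
    · intro h
      have : (8 : ℝ) * s.1 < 5 * p := by exact_mod_cast h
      linarith
    · intro h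
      have : (8 : ℝ) * s.1 < 5 * p := by linarith
      exact_mod_cast this
  have e2 : 0 < s.2 ↔ 0 < (s.2 : ℝ) / q := by
    rw [div_pos_iff_of_pos_right hqR]
    exact_mod_cast Iff.rfl
  have e3 : (lft p q s : ℝ) / q = if (s.1 : ℝ) / p < 5 / 8 then (s.2 : ℝ) / q else
      if 0 < (s.2 : ℝ) / q then 2 * ((s.2 : ℝ) / q) else 2 * ((s.2 : ℝ) / q) + 1 := by
    unfold lft
    by_cases h1 : 8 * s.1 < 5 * p
    · rw [if_pos h1, if_pos (e1.1 h1)]
    · rw [if_neg h1, if_neg (fun h => h1 (e1.2 h))]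
      by_cases h2 : 0 < s.2
      · rw [if_pos h2, if_pos (e2.1 h2)]
        push_cast
        ring
      · rw [if_neg h2, if_neg (fun h => h2 (e2.2 h))]
        push_cast
        field_simp
  rw [e3]
  generalize (s.1 : ℝ) / p = x at h ⊢
  generalize (s.2 : ℝ) / q = b at h ⊢
  unfold cen
  rw [abs_lt, abs_lt]
  rcases h with ⟨h1, h2, h3, h4⟩ | ⟨h1, h2, ⟨h3, h4⟩ | ⟨h3, h4⟩⟩ | ⟨h1, h2, ⟨h3, h4⟩ | ⟨h3, h4⟩⟩ |
    ⟨h1, h2, ⟨h3, h4⟩ | ⟨h3, h4⟩⟩ <;>
  split_ifs <;> first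
    | (exfalso; linarith)
    | exact ⟨⟨by linarith, by linarith⟩, ⟨by linarith, by linarith⟩⟩

/-- the integer divided by `q` is small: it vanishes -/
theorem int_zero {q : ℕ} (hq : 0 < q) {n : ℤ} (hd : (q : ℤ) ∣ n) (h : |(n : ℝ) / q| < 1) :
    n = 0 := by
  have hqR : (0 : ℝ) < q := by exact_mod_cast hq
  apply Int.eq_zero_of_abs_lt_dvd hd
  rw [abs_div, abs_of_pos hqR, div_lt_one hqR] at h
  exact_mod_cast h

theorem lft_mod {p q : ℕ} {a b c : ℤ × ℤ}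
    (hab : 8 * a.1 < 5 * p ↔ 8 * b.1 < 5 * p) (hac : 8 * a.1 < 5 * p ↔ 8 * c.1 < 5 * p)
    (h : (q : ℤ) ∣ a.2 + c.2 - 2 * b.2) :
    (q : ℤ) ∣ lft p q a + lft p q c - 2 * lft p q b := by
  obtain ⟨k, hk⟩ := h
  unfold lft
  by_cases h1 : 8 * a.1 < 5 * p
  · rw [if_pos h1, if_pos (hac.1 h1), if_pos (hab.1 h1)]
    exact ⟨k, hk⟩
  · rw [if_neg h1, if_neg (fun h => h1 (hac.2 h)), if_neg (fun h => h1 (hab.2 h))]
    split_ifs
    · exact ⟨2 * k, by linarith⟩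
    · exact ⟨2 * k - 2, by linarith⟩
    · exact ⟨2 * k + 1, by linarith⟩
    · exact ⟨2 * k + 1 - 2, by linarith⟩
    · exact ⟨2 * k + 1, by linarith⟩
    · exact ⟨2 * k + 1 - 2, by linarith⟩
    · exact ⟨2 * k + 2, by linarith⟩
    · exact ⟨2 * k + 2 - 2, by linarith⟩

theorem side_iff {p : ℕ} (hp : 0 < p) {a b : ℤ} (h : rg ((a : ℝ) / p) = rg ((b : ℝ) / p)) :
    8 * a < 5 * p ↔ 8 * b < 5 * p := by
  have hpR : (0 : ℝ) < p := by exact_mod_cast hp
  have e1 : ∀ a : ℤ, 8 * a < 5 * p ↔ (a : ℝ) / p < 5 / 8 := by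
    intro a
    rw [div_lt_div_iff₀ hpR (by norm_num)]
    constructor
    · intro h
      have : (8 : ℝ) * a < 5 * p := by exact_mod_cast h
      linarith
    · intro h
      have : (8 : ℝ) * a < 5 * p := by linarith
      exact_mod_cast this
  rw [e1, e1]
  generalize (a : ℝ) / p = x at h ⊢
  generalize (b : ℝ) / p = y at h ⊢
  unfold rg at h
  split_ifs at h <;> first
    | (exfalso; simp at h; done)
    | (constructor <;> intro _ <;> linarith)

/-- a fibre coordinate and its lift determine each other -/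
theorem lft_inj {p q : ℕ} (hq : q % 2 = 1) {a c : ℤ × ℤ}
    (hac : 8 * a.1 < 5 * p ↔ 8 * c.1 < 5 * p) (h : lft p q a = lft p q c) : a.2 = c.2 := by
  unfold lft at h
  by_cases h1 : 8 * a.1 < 5 * p
  · rw [if_pos h1, if_pos (hac.1 h1)] at h
    exact h
  · rw [if_neg h1, if_neg (fun h => h1 (hac.2 h))] at h
    split_ifs at h <;> omega

theorem blk_bound {δ : ℝ} (hδ : 0 ≤ δ) {p q : ℕ} (hp : 0 < p) (hq : 0 < q) {s : ℤ × ℤ}
    (hs : s ∈ blk δ p q) : 2 * |s.2| < q ∧ (lft p q s) ^ 2 < (q : ℤ) ^ 2 := by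
  have hqR : (0 : ℝ) < q := by exact_mod_cast hq
  constructor
  · have h := env_up hδ (mem_blk.1 hs).2
    have h1 : |(s.2 : ℝ) / q| < 1 / 2 := by linarith [h.2.1, h.2.2]
    rw [abs_div, abs_of_pos hqR, div_lt_div_iff₀ hqR (by norm_num)] at h1
    have h2 : (2 : ℝ) * |(s.2 : ℝ)| < q := by linarith
    exact_mod_cast h2
  · have h := (lft_cen hδ hp hq hs).2
    rw [abs_div, abs_of_pos hqR, div_lt_one hqR] at h
    have h2 : |lft p q s| < (q : ℤ) := by exact_mod_cast h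
    exact sq_lt_sq.2 (by rwa [abs_of_nonneg (by positivity : (0 : ℤ) ≤ (q : ℤ))])

/-- the block is free of nontrivial balanced progressions -/
theorem blk_gap {δ : ℝ} (hδ : 0 < δ) {K : ℤ} (hK : 256 / δ ^ 2 ≤ (K : ℝ)) {p q : ℕ} (hp : 0 < p)
    (hq : 0 < q) (hq2 : q % 2 = 1) (hpq : q ≤ 8 * p) {a b c : ℤ × ℤ} (ha : a ∈ blk δ p q)
    (hb : b ∈ blk δ p q) (hc : c ∈ blk δ p q) (h1 : (p : ℤ) ∣ a.1 + c.1 - 2 * b.1)
    (h2 : (q : ℤ) ∣ a.2 + c.2 - 2 * b.2) :
    0 ≤ wgt K p q a + wgt K p q c - 2 * wgt K p q b ∧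
      (wgt K p q a + wgt K p q c - 2 * wgt K p q b = 0 → a = c) := by
  have hpR : (0 : ℝ) < p := by exact_mod_cast hp
  have hqR : (0 : ℝ) < q := by exact_mod_cast hq
  have hpZ : (0 : ℤ) < p := by exact_mod_cast hp
  have hqZ : (0 : ℤ) < q := by exact_mod_cast hq
  have hpqZ : (q : ℤ) ≤ 8 * p := by exact_mod_cast hpq
  have hK0 : 0 < K := by
    have : (0 : ℝ) < K := lt_of_lt_of_le (by positivity) hK
    exact_mod_cast this
  have hKδ : 256 ≤ (K : ℝ) * δ ^ 2 := by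
    rwa [div_le_iff₀ (by positivity)] at hK
  have ra := (mem_blk.1 ha).1.1
  have rb := (mem_blk.1 hb).1.1
  have rc := (mem_blk.1 hc).1.1
  have wa := (blk_bound hδ.le hp hq ha).2
  have wb := (blk_bound hδ.le hp hq hb).2
  have wc := (blk_bound hδ.le hp hq hc).2
  have hqq : (q : ℤ) ^ 2 ≤ 64 * (p : ℤ) ^ 2 := by nlinarith
  have ha2 := sq_nonneg (lft p q a)
  have hc2 := sq_nonneg (lft p q c)
  obtain ⟨k, hk⟩ := h1
  have hk1 : k < 2 := by
    by_contra hcon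
    push Not at hcon
    nlinarith
  have hk2 : -2 < k := by
    by_contra hcon
    push Not at hcon
    nlinarith
  have hk3 : k = -1 ∨ k = 0 ∨ k = 1 := by omega
  rcases hk3 with rfl | rfl | rfl
  · exfalso
    obtain ⟨j, hj⟩ := h2
    refine blocked hδ.le (mem_blk.1 ha).2 (mem_blk.1 hb).2 (mem_blk.1 hc).2 ?_ j ?_
    · have : (a.1 : ℝ) + c.1 - 2 * b.1 = p * (-1) := by exact_mod_cast hk
      field_simp
      linarith
    · have : (a.2 : ℝ) + c.2 - 2 * b.2 = q * j := by exact_mod_cast hj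
      field_simp
      linarith
  · have hu : a.1 + c.1 = 2 * b.1 := by linarith
    have huR : (a.1 : ℝ) / p + c.1 / p = 2 * (b.1 / p) := by
      have : (a.1 : ℝ) + c.1 = 2 * b.1 := by exact_mod_cast hu
      field_simp
      linarith
    by_cases hr : rg ((a.1 : ℝ) / p) = rg ((c.1 : ℝ) / p)
    · obtain ⟨hr2, hcen⟩ := cen_mid hr huR
      have hsab := side_iff hp hr2.symm
      have hsac := side_iff hp hr
      have hdv := lft_mod hsab hsac h2
      have hz : lft p q a + lft p q c - 2 * lft p q b = 0 := by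
        apply int_zero hq hdv
        have ca := (lft_cen hδ.le hp hq ha).1
        have cb := (lft_cen hδ.le hp hq hb).1
        have cc := (lft_cen hδ.le hp hq hc).1
        rw [abs_lt] at ca cb cc ⊢
        push_cast
        have e : ((lft p q a : ℝ) + lft p q c - 2 * lft p q b) / q =
          (lft p q a : ℝ) / q + lft p q c / q - 2 * (lft p q b / q) := by ring
        rw [e]
        constructor <;> linarith
      have key : 2 * (wgt K p q a + wgt K p q c - 2 * wgt K p q b) =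
          K * (a.1 - c.1) ^ 2 + (lft p q a - lft p q c) ^ 2 := by
        unfold wgt
        have e1 : b.1 * 2 = a.1 + c.1 := by linarith
        have e2 : lft p q b * 2 = lft p q a + lft p q c := by linarith
        have e3 : 4 * b.1 ^ 2 = (a.1 + c.1) ^ 2 := by rw [← e1]; ring
        have e4 : 4 * (lft p q b) ^ 2 = (lft p q a + lft p q c) ^ 2 := by rw [← e2]; ring
        linear_combination (-(2 * K + 129) * p * 2) * e1 - K * e3 - e4
      constructor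
      · have : 0 ≤ K * (a.1 - c.1) ^ 2 + (lft p q a - lft p q c) ^ 2 := by positivity
        linarith
      · intro h0
        rw [h0, mul_zero] at key
        have g1 : 0 ≤ K * (a.1 - c.1) ^ 2 := by positivity
        have g2 : 0 ≤ (lft p q a - lft p q c) ^ 2 := by positivity
        have g3 : (lft p q a - lft p q c) ^ 2 = 0 := by linarith
        have g4 : K * (a.1 - c.1) ^ 2 = 0 := by linarith
        have g5 : lft p q a = lft p q c := by
          have := pow_eq_zero_iff (two_ne_zero) |>.1 g3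
          linarith
        have g6 : a.1 = c.1 := by
          rcases mul_eq_zero.1 g4 with h | h
          · exact absurd h hK0.ne'
          · have := pow_eq_zero_iff (two_ne_zero) |>.1 h
            linarith
        exact Prod.ext g6 (lft_inj hq2 hsac g5)
    · have hsep := rg_sep hδ (mem_blk.1 ha).2 (mem_blk.1 hc).2 hr
      have h5 : δ ^ 2 * p ^ 2 < ((a.1 : ℝ) - c.1) ^ 2 := by
        rw [← sub_div, abs_div, abs_of_pos hpR, lt_div_iff₀ hpR] at hsep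
        rw [← mul_pow, ← sq_abs ((a.1 : ℝ) - c.1)]
        exact pow_lt_pow_left₀ hsep (by positivity) two_ne_zero
      have h6 : (256 : ℝ) * p ^ 2 < K * ((a.1 : ℝ) - c.1) ^ 2 := by
        have hKR : (0 : ℝ) < K := by exact_mod_cast hK0
        calc (256 : ℝ) * p ^ 2 ≤ (K * δ ^ 2) * p ^ 2 := by
              apply mul_le_mul_of_nonneg_right hKδ (by positivity)
          _ = K * (δ ^ 2 * p ^ 2) := by ring
          _ < _ := mul_lt_mul_of_pos_left h5 hKR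
      have h7 : 256 * (p : ℤ) ^ 2 < K * (a.1 - c.1) ^ 2 := by exact_mod_cast h6
      have key : 2 * (wgt K p q a + wgt K p q c - 2 * wgt K p q b) =
          K * (a.1 - c.1) ^ 2 + 2 * (lft p q a) ^ 2 + 2 * (lft p q c) ^ 2
            - 4 * (lft p q b) ^ 2 := by
        unfold wgt
        have e1 : b.1 * 2 = a.1 + c.1 := by linarith
        have e3 : 4 * b.1 ^ 2 = (a.1 + c.1) ^ 2 := by rw [← e1]; ring
        linear_combination (-(2 * K + 129) * p * 2) * e1 - K * e3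
      have hpos : 0 < wgt K p q a + wgt K p q c - 2 * wgt K p q b := by linarith
      exact ⟨hpos.le, fun h => absurd h hpos.ne'⟩
  · have hpos : 0 < wgt K p q a + wgt K p q c - 2 * wgt K p q b := by
      unfold wgt
      have e1 : a.1 + c.1 - 2 * b.1 = p := by linarith
      have e2 : b.1 ^ 2 < (p : ℤ) ^ 2 := by nlinarith
      have e3 : (2 * K + 129) * p * a.1 + K * a.1 ^ 2 + (lft p q a) ^ 2 +
          ((2 * K + 129) * p * c.1 + K * c.1 ^ 2 + (lft p q c) ^ 2) -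
          2 * ((2 * K + 129) * p * b.1 + K * b.1 ^ 2 + (lft p q b) ^ 2) =
          (2 * K + 129) * p * (a.1 + c.1 - 2 * b.1) + K * (a.1 ^ 2 + c.1 ^ 2) - 2 * (K * b.1 ^ 2)
          + (lft p q a) ^ 2 + (lft p q c) ^ 2 - 2 * (lft p q b) ^ 2 := by ring
      rw [e3, e1]
      have e4 : K * b.1 ^ 2 < K * (p : ℤ) ^ 2 := mul_lt_mul_of_pos_left e2 hK0
      have e5 : 0 ≤ K * (a.1 ^ 2 + c.1 ^ 2) := by positivity
      have e6 : (0 : ℤ) < (p : ℤ) ^ 2 := by positivity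
      nlinarith
    exact ⟨hpos.le, fun h => absurd h hpos.ne'⟩

theorem blk_inj {δ : ℝ} (hδ : 0 ≤ δ) {p q : ℕ} (hp : 0 < p) (hq : 0 < q) {a c : ℤ × ℤ}
    (ha : a ∈ blk δ p q) (hc : c ∈ blk δ p q) (h1 : (p : ℤ) ∣ a.1 - c.1)
    (h2 : (q : ℤ) ∣ a.2 - c.2) : a = c := by
  have ra := (mem_blk.1 ha).1.1
  have rc := (mem_blk.1 hc).1.1
  have va := (blk_bound hδ hp hq ha).1
  have vc := (blk_bound hδ hp hq hc).1
  apply Prod.ext
  · have : |a.1 - c.1| < (p : ℤ) := by rw [abs_lt]; constructor <;> linarith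
    have := Int.eq_zero_of_abs_lt_dvd h1 this
    linarith
  · have h3 := abs_sub a.2 c.2
    have : |a.2 - c.2| < (q : ℤ) := by linarith
    have := Int.eq_zero_of_abs_lt_dvd h2 this
    linarith

theorem wgt_bounds {δ : ℝ} (hδ : 0 ≤ δ) {K : ℤ} (hK : 0 ≤ K) {p q m : ℕ} (hp : 0 < p)
    (hq : 0 < q) (hpm : p ≤ m) (hqm : q ≤ m) {s : ℤ × ℤ} (hs : s ∈ blk δ p q) :
    0 ≤ wgt K p q s ∧ wgt K p q s ≤ (3 * K + 130) * (m : ℤ) ^ 2 := by
  have rs := (mem_blk.1 hs).1.1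
  have ws := (blk_bound hδ hp hq hs).2
  have hpZ : (0 : ℤ) < p := by exact_mod_cast hp
  have hqZ : (0 : ℤ) < q := by exact_mod_cast hq
  have hpmZ : (p : ℤ) ≤ m := by exact_mod_cast hpm
  have hqmZ : (q : ℤ) ≤ m := by exact_mod_cast hqm
  have g1 : 0 ≤ (p : ℤ) * s.1 := by
    have := rs.1
    positivity
  have g2 : (p : ℤ) * s.1 ≤ (m : ℤ) ^ 2 := by nlinarith
  have g3 : s.1 ^ 2 ≤ (m : ℤ) ^ 2 := by nlinarith
  have g4 : (q : ℤ) ^ 2 ≤ (m : ℤ) ^ 2 := by nlinarith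
  unfold wgt
  constructor
  · have : 0 ≤ (2 * K + 129) * ((p : ℤ) * s.1) := by positivity
    have : 0 ≤ K * s.1 ^ 2 := by positivity
    have := sq_nonneg (lft p q s)
    linarith
  · have h1 : (2 * K + 129) * ((p : ℤ) * s.1) ≤ (2 * K + 129) * (m : ℤ) ^ 2 :=
      mul_le_mul_of_nonneg_left g2 (by positivity)
    have h2 : K * s.1 ^ 2 ≤ K * (m : ℤ) ^ 2 := mul_le_mul_of_nonneg_left g3 hK
    linarith

end Vale.Agent.P057.H933
end
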